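import Vale.Agent.N262L.Sg
import Vale.Agent.P262.H691.Final

open scoped ENNReal
open Finset

namespace Vale.Agent.N262L

open Vale.Agent.P262 Vale.Agent.P262.H691

variable {d : ℕ}

theorem st_of {K : ℝ} (h : ∀ (N : ℕ) (v : Fin N → V d), (∀ i, ‖v i‖ ≤ 1) →
    ∃ π : Equiv.Perm (Fin N), ∀ k : ℕ, k ≤ N →
      ‖prefixSum (fun i => v (π i)) k - ((k : ℝ) / N) • ∑ i, v i‖ ≤ K) : St d K := by
  intro l ρ hρ hl
  have hv : ∀ i : Fin l.length, ρ • ρ⁻¹ • l.get i = l.get i := by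
    intro i
    rcases hρ.eq_or_lt with h0 | h0
    · have : l.get i = 0 := norm_le_zero_iff.1 (h0 ▸ hl _ (List.get_mem l i))
      simp only [this, smul_zero]
    · rw [smul_smul, mul_inv_cancel₀ h0.ne', one_smul]
  obtain ⟨π, hπ⟩ := h l.length (fun i => ρ⁻¹ • l.get i) fun i => by
    rw [norm_smul, norm_inv, Real.norm_of_nonneg hρ]
    exact inv_mul_le_one_of_le₀ (hl _ (List.get_mem l i)) hρ
  refine ⟨List.ofFn (l.get ∘ π), (Equiv.Perm.ofFn_comp_perm π l.get).trans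
    (List.Perm.of_eq (List.ofFn_get l)), fun k hk => ?_⟩
  have e : ((List.ofFn (l.get ∘ π)).take k).sum - ((k : ℝ) / l.length) • l.sum =
      ρ • (prefixSum (fun i => ρ⁻¹ • l.get (π i)) k -
        ((k : ℝ) / l.length) • ∑ i, ρ⁻¹ • l.get i) := by
    rw [List.sum_take_ofFn, smul_sub, smul_comm ρ, prefixSum, smul_sum, smul_sum]
    simp only [hv]
    rw [← List.sum_ofFn, List.ofFn_get]
    rfl
  rw [e, norm_smul, Real.norm_of_nonneg hρ, mul_comm]
  exact mul_le_mul_of_nonneg_right (hπ k hk) hρ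

theorem sigma_le (d : ℕ) : sigma d ≤ signedConst d := by
  refine iSup₂_le fun l hl => le_iSup_of_le l.length (le_iSup₂_of_le l.get
    (fun i => hl _ (List.get_mem l i)) (le_iInf fun ε => ?_))
  refine iInf_le_of_le (fun i => if h : i < l.length then ε ⟨i, h⟩ else 1) (iSup_le fun k => ?_)
  have e : (l.mapIdx fun i v => (if h : i < l.length then ε ⟨i, h⟩ else 1) • v) =
      List.ofFn fun i : Fin l.length => ((ε i : ℤ) : ℝ) • l.get i := by
    refine List.ext_getElem (by simp) fun i h1 h2 => ?_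
    have hi : i < l.length := by simpa using h1
    simp [hi, Units.smul_def, Int.cast_smul_eq_zsmul]
  rw [e]
  refine le_iSup_of_le ⟨min k l.length, by omega⟩ (le_of_eq ?_)
  rw [partialSum, ← List.sum_take_ofFn]
  congr 2
  rw [List.take_eq_take_iff]
  simp

theorem peak_le {l : List (V d)} {K : ℝ} (h : ∀ k ≤ l.length, ‖(l.take k).sum‖ ≤ K) :
    peak l ≤ ENNReal.ofReal K := by
  refine iSup_le fun k => ?_
  rw [← ofReal_norm]
  refine ENNReal.ofReal_le_ofReal ?_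
  rcases le_total k l.length with hk | hk
  · exact h k hk
  · have := h l.length le_rfl
    rwa [List.take_length, ← List.take_of_length_le hk] at this

theorem top_of_le {l : List (V d)} (hl : ∀ v ∈ l, ‖v‖ ≤ 1) : Top l √d := by
  intro t ht hd
  have := List.sum_le_card_nsmul (t.map fun v => ‖v‖ ^ 2) 1 (by
    intro x hx
    obtain ⟨y, hy, rfl⟩ := List.mem_map.1 hx
    exact pow_le_one₀ (norm_nonneg _) (hl y (ht.subset hy)))
  rw [List.length_map, nsmul_eq_mul, mul_one] at this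
  rw [Real.sq_sqrt (Nat.cast_nonneg d)]
  exact this.trans (by exact_mod_cast hd)

theorem main : ∃ C : ℝ, 0 < C ∧ ∀ d : ℕ, 1 ≤ d →
    (ENNReal.ofReal (√d / 2) ≤ S2 d ∧ S2 d ≤ ENNReal.ofReal (C * √d) ∧
      ENNReal.ofReal √d ≤ sigma d ∧ sigma d ≤ ENNReal.ofReal (C * √d * Real.log (d + 1))) ∧
    (∀ (l : List (V d)) (M : ℝ), 0 ≤ M → Top l M →
      (∃ l' : List (V d), l'.Perm l ∧
        ∀ k ≤ l.length, ‖(l'.take k).sum - ((k : ℝ) / l.length) • l.sum‖ ≤ C * M) ∧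
      (l.sum = 0 → beta l ≤ ENNReal.ofReal (C * M)) ∧
      signs l ≤ ENNReal.ofReal M + ENNReal.ofReal (M / √d) * sigma d) ∧
    ∀ r : Fin d → ℝ, (∀ i, 0 < r i) → ∃ l : List (V d), l.sum = 0 ∧
      (List.ofFn r).Sublist (l.map fun v => ‖v‖) ∧ Top l √(∑ i, r i ^ 2) ∧
      ENNReal.ofReal (√(∑ i, r i ^ 2) / 2) ≤ beta l := by
  obtain ⟨c, C, -, hC, h⟩ := steinitz_lp_order
  refine ⟨C + 2, by linarith, fun d hd => ?_⟩
  obtain ⟨⟨-, -, h1⟩, -, -, h2⟩ := h d hd
  have h3 := (h2 (V d) LinearMap.id 1 zero_le_one fun x => by simp).2.2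
  rw [mul_one] at h3
  have h4 := fun (l : List (V d)) (M : ℝ) (hM : 0 ≤ M) (hT : Top l M) =>
    profile hd hC.le (st_of h3) l hM hT
  have h5 : ∀ (l : List (V d)) (M : ℝ), 0 ≤ M → Top l M → l.sum = 0 →
      beta l ≤ ENNReal.ofReal ((C + 2) * M) := by
    intro l M hM hT hs
    obtain ⟨l', e1, e2⟩ := h4 l M hM hT
    refine iInf₂_le_of_le l' e1 (peak_le fun k hk => ?_)
    simpa [hs] using e2 k (e1.length_eq ▸ hk)
  refine ⟨⟨?_, iSup₂_le fun l hl => iSup_le (h5 l _ (Real.sqrt_nonneg _) (top_of_le hl)),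
    sqrt_le_sigma d, (sigma_le d).trans (h1.trans (ENNReal.ofReal_le_ofReal ?_))⟩,
    fun l M hM hT => ⟨h4 l M hM hT, h5 l M hM hT, signs_le hd l hM hT⟩, fun r hr => ?_⟩
  · obtain ⟨l, e1, -, e2, -, e3⟩ := lower hd (fun _ => 1) fun _ => one_pos
    refine le_iSup₂_of_le l (fun v hv => (e2 v hv).choose_spec) (le_iSup_of_le e1 ?_)
    simpa using e3
  · have : 0 ≤ √(d : ℝ) * Real.log (d + 1) := mul_nonneg (Real.sqrt_nonneg _)
      (Real.log_nonneg (by have : (0 : ℝ) ≤ d := Nat.cast_nonneg d; linarith))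
    nlinarith
  · obtain ⟨l, e1, e2, -, e3, e4⟩ := lower hd r hr
    exact ⟨l, e1, e2, e3, e4⟩

end Vale.Agent.N262L
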