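import Mathlib

open scoped ENNReal

namespace Vale.Agent.N262L

variable {d : ℕ}

/-- Euclidean `ℝ^d`. -/
abbrev V (d : ℕ) : Type := EuclideanSpace ℝ (Fin d)

/-- The largest norm of a prefix sum `v_1 + ... + v_k`, `k ≥ 0`, of a finite sequence. -/
noncomputable def peak (l : List (V d)) : ℝ≥0∞ := ⨆ k : ℕ, ‖(l.take k).sum‖ₑ

/-- `β`: the least `peak` of a rearrangement. -/
noncomputable def beta (l : List (V d)) : ℝ≥0∞ := ⨅ (l' : List (V d)) (_ : l'.Perm l), peak l'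

/-- The least `peak` of a signing. -/
noncomputable def signs (l : List (V d)) : ℝ≥0∞ :=
  ⨅ ε : ℕ → ℤˣ, peak (l.mapIdx fun i v => ε i • v)

/-- `S_2(d)`. -/
noncomputable def S2 (d : ℕ) : ℝ≥0∞ :=
  ⨆ (l : List (V d)) (_ : ∀ v ∈ l, ‖v‖ ≤ 1) (_ : l.sum = 0), beta l

/-- `σ(d)`. -/
noncomputable def sigma (d : ℕ) : ℝ≥0∞ := ⨆ (l : List (V d)) (_ : ∀ v ∈ l, ‖v‖ ≤ 1), signs l

/-- The squared norms of any `d` or fewer terms of `l` add up to at most `M ^ 2`. -/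
def Top (l : List (V d)) (M : ℝ) : Prop :=
  ∀ t : List (V d), t.Sublist l → t.length ≤ d → (t.map fun v => ‖v‖ ^ 2).sum ≤ M ^ 2

end Vale.Agent.N262L
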