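import Vale.Agent.N262L.Up

/-!
# Signs: long vectors greedily, the others by `σ(d)`; lower bounds
-/

open scoped RealInnerProductSpace ENNReal
open Finset

namespace Vale.Agent.N262L

variable {d : ℕ}

theorem sum_take_map {A : Type} [AddCommMonoid A] (g : V d → A) (g0 : g 0 = 0) (l : List (V d)) :
    ∀ k, ((l.take k).map g).sum = ∑ i ∈ range k, g (l.getD i 0) := by
  induction l with
  | nil => intro k; simp [g0]
  | cons x l ih =>
    intro k
    cases k with
    | zero => simp
    | succ k =>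
      rw [List.take_succ_cons, List.map_cons, List.sum_cons, ih, sum_range_succ', add_comm]
      simp

theorem sum_take_signs (ε : ℕ → ℤˣ) (l : List (V d)) (k : ℕ) :
    ((l.mapIdx fun i v => ε i • v).take k).sum = ∑ i ∈ range k, ε i • l.getD i 0 := by
  have := sum_take_map id rfl (l.mapIdx fun i v => ε i • v) k
  rw [List.map_id] at this
  rw [this]
  refine sum_congr rfl fun i _ => ?_
  simp only [id, List.getD_eq_getElem?_getD, List.getElem?_mapIdx]
  cases l[i]? <;> simp

theorem getD_map (g : V d → V d) (g0 : g 0 = 0) (l : List (V d)) (i : ℕ) :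
    (l.map g).getD i 0 = g (l.getD i 0) := by
  simp only [List.getD_eq_getElem?_getD, List.getElem?_map]
  cases l[i]? <;> simp [g0]

theorem greedy_signs (b : ℕ → V d) : ∃ ε : ℕ → ℤˣ, ∀ k,
    ‖∑ i ∈ range k, ε i • b i‖ ^ 2 ≤ ∑ i ∈ range k, ‖b i‖ ^ 2 := by
  classical
  let S : ℕ → V d := fun n =>
    Nat.rec 0 (fun i S => S + (if ⟪S, b i⟫ ≤ 0 then (1 : ℤˣ) else -1) • b i) n
  refine ⟨fun i => if ⟪S i, b i⟫ ≤ 0 then 1 else -1, fun k => ?_⟩
  have h1 : ∀ k, ∑ i ∈ range k, (if ⟪S i, b i⟫ ≤ 0 then (1 : ℤˣ) else -1) • b i = S k := by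
    intro k
    induction k with
    | zero => rfl
    | succ k ih => rw [sum_range_succ, ih]
  induction k with
  | zero => simp
  | succ k ih =>
    rw [sum_range_succ, sum_range_succ]
    rw [h1] at ih ⊢
    dsimp only
    split_ifs with h
    · rw [one_smul, norm_add_sq_real]; linarith
    · rw [Units.neg_smul, one_smul, ← sub_eq_add_neg, norm_sub_sq_real]; linarith

theorem sum_filter (p : V d → Prop) [DecidablePred p] (l : List (V d)) :
    (l.map fun v => ‖if p v then v else 0‖ ^ 2).sum = sq (l.filter fun v => p v) := by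
  induction l with
  | nil => simp [sq]
  | cons x l ih =>
    by_cases h : p x
    · rw [List.filter_cons_of_pos (by simpa using h), sq_cons, ← ih]; simp [h]
    · rw [List.filter_cons_of_neg (by simpa using h), ← ih]; simp [h]

theorem big_sq (hd : 1 ≤ d) {l : List (V d)} {M : ℝ} (hT : Top l M) :
    sq (l.filter fun v => M ^ 2 < d * ‖v‖ ^ 2) ≤ M ^ 2 := by
  set u := l.filter fun v => M ^ 2 < d * ‖v‖ ^ 2 with hu
  rcases le_or_gt u.length d with h | h
  · exact hT u List.filter_sublist h
  · exfalso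
    have hlen : (u.take d).length = d := by rw [List.length_take]; exact min_eq_left h.le
    have h1 := hT (u.take d) ((List.take_sublist d u).trans List.filter_sublist) hlen.le
    have h2 := List.sum_lt_sum_of_ne_nil (l := u.take d) (by
      intro e; rw [e] at hlen; simp at hlen; omega) (fun _ => M ^ 2) (fun v => d * ‖v‖ ^ 2)
      (fun v hv => by simpa using (List.mem_filter.1 (List.mem_of_mem_take hv)).2)
    rw [List.sum_map_mul_left, List.map_const', List.sum_replicate, hlen, nsmul_eq_mul] at h2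
    have hd0 : (0 : ℝ) < d := by exact_mod_cast hd
    nlinarith

theorem signs_le (hd : 1 ≤ d) (l : List (V d)) {M : ℝ} (hM : 0 ≤ M) (hT : Top l M) :
    signs l ≤ ENNReal.ofReal M + ENNReal.ofReal (M / √d) * sigma d := by
  classical
  have hd0 : (0 : ℝ) < d := by exact_mod_cast hd
  have hsq : 0 < √(d : ℝ) := Real.sqrt_pos.2 hd0
  set ρ := M / √d with hρ
  have hρ0 : 0 ≤ ρ := by positivity
  let p : V d → Prop := fun v => M ^ 2 < d * ‖v‖ ^ 2
  have hp : ∀ v, ¬p v → ‖v‖ ≤ ρ := by
    intro v hv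
    rw [hρ, le_div_iff₀ hsq]
    refine (pow_le_pow_iff_left₀ (by positivity) hM two_ne_zero).1 ?_
    rw [mul_pow, Real.sq_sqrt hd0.le, mul_comm]
    exact not_lt.1 hv
  let g : V d → V d := fun v => if p v then 0 else ρ⁻¹ • v
  have g0 : g 0 = 0 := by simp [g]
  have hg : ∀ v, ‖g v‖ ≤ 1 := by
    intro v
    simp only [g]
    split_ifs with h
    · simp
    · rw [norm_smul, norm_inv, Real.norm_of_nonneg hρ0]
      exact inv_mul_le_one_of_le₀ (hp v h) hρ0
  have hg' : ∀ v, ¬p v → ρ • g v = v := by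
    intro v hv
    simp only [g, if_neg hv]
    rcases hρ0.eq_or_lt with h | h
    · have : v = 0 := norm_le_zero_iff.1 (h ▸ hp v hv)
      simp [this]
    · rw [smul_smul, mul_inv_cancel₀ h.ne', one_smul]
  have h1 : signs (l.map g) ≤ sigma d :=
    le_iSup₂_of_le (f := fun (l : List (V d)) (_ : ∀ v ∈ l, ‖v‖ ≤ 1) => signs l) (l.map g)
      (fun v hv => by
        obtain ⟨x, -, rfl⟩ := List.mem_map.1 hv
        exact hg x) le_rfl
  refine le_trans ?_ (add_le_add le_rfl (mul_le_mul_right h1 _))
  obtain ⟨ε1, h2⟩ := greedy_signs fun i => if p (l.getD i 0) then l.getD i 0 else 0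
  unfold signs
  rw [ENNReal.mul_iInf (fun h => absurd h ENNReal.ofReal_ne_top), ENNReal.add_iInf]
  refine le_iInf fun ε2 => iInf_le_of_le (fun i => if p (l.getD i 0) then ε1 i else ε2 i)
    (iSup_le fun k => ?_)
  have h3 : ‖∑ i ∈ range k, ε1 i • if p (l.getD i 0) then l.getD i 0 else 0‖ ≤ M := by
    refine (pow_le_pow_iff_left₀ (norm_nonneg _) hM two_ne_zero).1 ((h2 k).trans ?_)
    rw [← sum_take_map (fun v => ‖if p v then v else 0‖ ^ 2) (by simp) l k]
    refine le_trans (((List.take_sublist k l).map _).sum_le_sum fun a ha => ?_) ?_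
    · obtain ⟨x, -, rfl⟩ := List.mem_map.1 ha
      positivity
    · rw [sum_filter]
      exact big_sq hd hT
  have h4 : ∑ i ∈ range k, (if p (l.getD i 0) then ε1 i else ε2 i) • l.getD i 0 =
      (∑ i ∈ range k, ε1 i • if p (l.getD i 0) then l.getD i 0 else 0) +
        ρ • ∑ i ∈ range k, ε2 i • (l.map g).getD i 0 := by
    rw [smul_sum, ← sum_add_distrib]
    refine sum_congr rfl fun i _ => ?_
    rw [getD_map g g0]
    by_cases h : p (l.getD i 0)
    · simp only [g, if_pos h, smul_zero, add_zero]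
    · rw [if_neg h, if_neg h, smul_zero, zero_add, smul_comm, hg' _ h]
  rw [sum_take_signs, h4]
  refine (enorm_add_le _ _).trans (add_le_add ?_ ?_)
  · rw [← ofReal_norm]
    exact ENNReal.ofReal_le_ofReal h3
  · rw [enorm_smul, Real.enorm_eq_ofReal hρ0, ← sum_take_signs]
    exact mul_le_mul_right (le_iSup (fun k =>
      ‖(((l.map g).mapIdx fun i v => ε2 i • v).take k).sum‖ₑ) k) _

theorem exists_count (c : V d) (l : List (V d)) [DecidableEq (V d)] :
    ∀ n ≤ l.count c, ∃ k, (l.take k).count c = n := by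
  induction l with
  | nil => intro n hn; exact ⟨0, by simpa using (Nat.le_zero.1 hn).symm⟩
  | cons x l ih =>
    intro n hn
    rcases Nat.eq_zero_or_pos n with rfl | h0
    · exact ⟨0, by simp⟩
    · by_cases h : x = c
      · subst h
        rw [List.count_cons_self] at hn
        obtain ⟨k, hk⟩ := ih (n - 1) (by omega)
        exact ⟨k + 1, by rw [List.take_succ_cons, List.count_cons_self]; omega⟩
      · rw [List.count_cons_of_ne h] at hn
        obtain ⟨k, hk⟩ := ih n hn
        exact ⟨k + 1, by rw [List.take_succ_cons, List.count_cons_of_ne h, hk]⟩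

theorem inner_sums (A B : List (V d)) (h : ∀ x ∈ A, ∀ y ∈ B, ⟪x, y⟫ = 0) :
    ⟪A.sum, B.sum⟫ = 0 := by
  rw [← inner_sum']
  refine List.sum_eq_zero fun a ha => ?_
  obtain ⟨y, hy, rfl⟩ := List.mem_map.1 ha
  rw [real_inner_comm, ← inner_sum']
  refine List.sum_eq_zero fun a ha => ?_
  obtain ⟨x, hx, rfl⟩ := List.mem_map.1 ha
  rw [real_inner_comm]
  exact h x hx y hy

theorem lower (hd : 1 ≤ d) (r : Fin d → ℝ) (hr : ∀ i, 0 < r i) : ∃ l : List (V d), l.sum = 0 ∧
    (List.ofFn r).Sublist (l.map fun v => ‖v‖) ∧ (∀ v ∈ l, ∃ i, ‖v‖ ≤ r i) ∧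
    Top l √(∑ i, r i ^ 2) ∧ ENNReal.ofReal (√(∑ i, r i ^ 2) / 2) ≤ beta l := by
  classical
  have : Nonempty (Fin d) := ⟨⟨0, hd⟩⟩
  let g : Fin d → V d := fun i => EuclideanSpace.single i (r i)
  have hg : ∀ i, ‖g i‖ = r i := fun i => by simp [g, abs_of_pos (hr i)]
  set s : V d := (List.ofFn g).sum with hs
  have hsi : ∀ i, s i = r i := by
    intro i
    rw [hs, List.sum_ofFn]
    simp [g, Finset.sum_apply, Pi.single_apply]
  have hsn : ‖s‖ = √(∑ i, r i ^ 2) := by
    rw [EuclideanSpace.norm_eq]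
    simp only [hsi, Real.norm_eq_abs, sq_abs]
  obtain ⟨i0, hi0⟩ := Finite.exists_min r
  obtain ⟨n, hn⟩ := exists_nat_gt (‖s‖ / r i0)
  have hn0 : (0 : ℝ) < n := lt_of_le_of_lt (div_nonneg (norm_nonneg _) (hr i0).le) hn
  set c : V d := -((2 * n : ℝ)⁻¹ • s) with hc
  have hcn : ‖c‖ ≤ r i0 := by
    rw [hc, norm_neg, norm_smul, norm_inv, Real.norm_of_nonneg (by positivity),
      inv_mul_le_iff₀ (by positivity)]
    rw [div_lt_iff₀ (hr i0)] at hn
    have := hr i0
    nlinarith
  have hne : ∀ i, g i ≠ c := by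
    intro i e
    have h1 : g i i = c i := by rw [e]
    have h2 := hr i
    have h3 : 0 < (2 * n : ℝ)⁻¹ * r i := by positivity
    simp only [g, hc, PiLp.neg_apply, PiLp.smul_apply, hsi, smul_eq_mul,
      PiLp.single_apply, if_true] at h1
    linarith
  have hq : sq (List.ofFn g) = ∑ i, r i ^ 2 := by
    unfold sq
    rw [List.map_ofFn, List.sum_ofFn]
    simp only [Function.comp, hg]
  refine ⟨List.ofFn g ++ List.replicate (2 * n) c, ?_, ?_, ?_, ?_, ?_⟩
  · rw [List.sum_append, List.sum_replicate, ← hs, ← Nat.cast_smul_eq_nsmul ℝ, hc, smul_neg,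
      smul_smul, Nat.cast_mul, Nat.cast_ofNat, mul_inv_cancel₀ (by positivity), one_smul,
      add_neg_cancel]
  · rw [List.map_append, List.map_ofFn]
    have : ((fun v : V d => ‖v‖) ∘ g) = r := funext hg
    rw [this]
    exact List.sublist_append_left _ _
  · intro v hv
    rcases List.mem_append.1 hv with hv | hv
    · obtain ⟨i, rfl⟩ := List.mem_ofFn.1 hv
      exact ⟨i, (hg i).le⟩
    · exact ⟨i0, List.eq_of_mem_replicate hv ▸ hcn⟩
  · intro t ht htd
    obtain ⟨t1, t2, rfl, h1, h2⟩ := List.sublist_append_iff.1 ht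
    obtain ⟨m, -, rfl⟩ := List.sublist_replicate_iff.1 h2
    obtain ⟨t', h3⟩ := h1.exists_perm_append
    have h4 := h3.length_eq
    rw [List.length_ofFn, List.length_append] at h4
    rw [List.length_append, List.length_replicate] at htd
    have h5 := List.card_nsmul_le_sum (t'.map fun v => ‖v‖ ^ 2) (‖c‖ ^ 2) (by
      intro x hx
      obtain ⟨y, hy, rfl⟩ := List.mem_map.1 hx
      obtain ⟨i, rfl⟩ := List.mem_ofFn.1 (h3.symm.subset (List.mem_append_right _ hy))
      exact pow_le_pow_left₀ (norm_nonneg _) (hcn.trans ((hi0 i).trans (hg i).ge)) 2)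
    rw [List.length_map, nsmul_eq_mul] at h5
    have h6 : (m : ℝ) ≤ t'.length := by exact_mod_cast (by omega : m ≤ t'.length)
    rw [Real.sq_sqrt (sum_nonneg fun i _ => sq_nonneg _), ← hq, sq_perm h3, sq_append]
    change sq _ ≤ _
    rw [sq_append]
    have h7 : sq (List.replicate m c) = m * ‖c‖ ^ 2 := by simp [sq]
    have h8 := mul_le_mul_of_nonneg_right h6 (sq_nonneg ‖c‖)
    unfold sq at *
    linarith
  · refine le_iInf₂ fun l' hl' => ?_
    have hcount : l'.count c = 2 * n := by
      rw [hl'.count_eq, List.count_append, List.count_replicate_self,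
        List.count_eq_zero_of_not_mem, zero_add]
      intro h
      obtain ⟨i, hi⟩ := List.mem_ofFn.1 h
      exact hne i hi
    obtain ⟨k, hk⟩ := exists_count c l' n (by omega)
    refine le_iSup_of_le k ?_
    set A := (l'.take k).filter fun x => !decide (x = c) with hA
    set B := (l'.drop k).filter fun x => !decide (x = c) with hB
    have h1 : (A ++ B).Perm (List.ofFn g) := by
      rw [hA, hB, ← List.filter_append, List.take_append_drop]
      refine (hl'.filter _).trans (List.Perm.of_eq ?_)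
      rw [List.filter_append, List.filter_eq_self.2, List.filter_eq_nil_iff.2, List.append_nil]
      · intro a ha
        simp [List.eq_of_mem_replicate ha]
      · intro a ha
        obtain ⟨i, rfl⟩ := List.mem_ofFn.1 ha
        simpa using hne i
    have h2 : List.Pairwise (fun x y : V d => ⟪x, y⟫ = 0) (List.ofFn g) := by
      rw [List.pairwise_ofFn]
      intro i j hij
      simp [g, EuclideanSpace.inner_single_left, hij.ne]
    rw [← h1.pairwise_iff (fun h => by rw [real_inner_comm]; exact h),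
      List.pairwise_append] at h2
    have h3 := inner_sums A B h2.2.2
    have h4 : A.sum + B.sum = s := by rw [← List.sum_append, h1.sum_eq]
    have h5 : (l'.take k).sum = (1 / 2 : ℝ) • (A.sum - B.sum) := by
      rw [← (List.filter_append_perm (fun x => decide (x = c)) (l'.take k)).sum_eq,
        List.sum_append, List.filter_eq, hk, List.sum_replicate, ← hA,
        ← Nat.cast_smul_eq_nsmul ℝ, hc, smul_neg, smul_smul, ← h4,
        show (n : ℝ) * (2 * n : ℝ)⁻¹ = 1 / 2 by field_simp]
      module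
    have h6 : ‖A.sum - B.sum‖ = ‖s‖ := by
      refine (pow_left_inj₀ (norm_nonneg _) (norm_nonneg _) two_ne_zero).1 ?_
      rw [← h4, norm_sub_sq_real, norm_add_sq_real, h3]
      ring
    rw [h5, ← ofReal_norm, norm_smul, h6, hsn]
    refine ENNReal.ofReal_le_ofReal (le_of_eq ?_)
    rw [Real.norm_of_nonneg (by norm_num)]
    ring

theorem sqrt_le_sigma (d : ℕ) : ENNReal.ofReal √d ≤ sigma d := by
  let g : Fin d → V d := fun i => EuclideanSpace.single i 1
  refine le_iSup₂_of_le (f := fun (l : List (V d)) (_ : ∀ v ∈ l, ‖v‖ ≤ 1) => signs l)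
    (List.ofFn g) (fun v hv => ?_) (le_iInf fun ε => le_iSup_of_le d ?_)
  · obtain ⟨i, rfl⟩ := List.mem_ofFn.1 hv
    simp [g]
  · rw [sum_take_signs, ← ofReal_norm, sum_range]
    refine ENNReal.ofReal_le_ofReal (le_of_eq ?_)
    have h1 : ∀ i : Fin d, (List.ofFn g).getD i 0 = g i := fun i => by simp
    simp only [h1]
    rw [EuclideanSpace.norm_eq]
    congr 1
    have h2 : ∀ j : Fin d, ‖(∑ i : Fin d, ε i • g i) j‖ ^ 2 = 1 := by
      intro j
      have : (∑ i : Fin d, ε i • g i) j = ((ε j : ℤ) : ℝ) := by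
        simp [g, Finset.sum_apply, Pi.single_apply, Units.smul_def]
      rw [this]
      rcases Int.units_eq_one_or (ε j) with h | h <;> simp [h]
    simp only [h2]
    simp

end Vale.Agent.N262L
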