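import Vale.Agent.N262L.Defs

/-!
# Long vectors are ordered greedily, the others by the Steinitz bound
-/

open scoped RealInnerProductSpace

namespace Vale.Agent.N262L

variable {d : ℕ}

/-- sum of the squared norms -/
noncomputable def sq (l : List (V d)) : ℝ := (l.map fun v => ‖v‖ ^ 2).sum

theorem sq_cons (x : V d) (l : List (V d)) : sq (x :: l) = ‖x‖ ^ 2 + sq l := by simp [sq]

theorem sq_perm {l l' : List (V d)} (h : l.Perm l') : sq l = sq l' := (h.map _).sum_eq

theorem sq_nonneg' (l : List (V d)) : 0 ≤ sq l :=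
  List.sum_nonneg fun x hx => by
    obtain ⟨v, -, rfl⟩ := List.mem_map.1 hx
    positivity

theorem sq_append (l l' : List (V d)) : sq (l ++ l') = sq l + sq l' := by simp [sq]

theorem inner_sum' (x : V d) (z : List (V d)) :
    (z.map fun y => ⟪x, y⟫).sum = ⟪x, z.sum⟫ := by
  induction z with
  | nil => simp
  | cons y z ih => simp [inner_add_right, ih]

theorem greedy (n : ℕ) : ∀ (z : List (V d)) (x : V d), z.length = n → x + z.sum = 0 →
    ∃ z' : List (V d), z'.Perm z ∧ ∀ j, ‖x + (z'.take j).sum‖ ^ 2 ≤ ‖x‖ ^ 2 + sq z := by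
  classical
  induction n with
  | zero =>
    intro z x hz _
    rw [List.length_eq_zero_iff] at hz
    subst hz
    exact ⟨[], List.Perm.refl _, fun j => by simp [sq]⟩
  | succ n ih =>
    intro z x hz hs
    have hne : z ≠ [] := by rintro rfl; simp at hz
    obtain ⟨y, hy, hxy⟩ := List.exists_le_of_sum_le hne (fun y => ⟪x, y⟫) (fun _ => (0 : ℝ)) (by
      rw [inner_sum', eq_neg_of_add_eq_zero_right hs, inner_neg_right, real_inner_self_eq_norm_sq]
      simp)
    have hp := List.perm_cons_erase hy
    obtain ⟨z', h1, h2⟩ := ih (z.erase y) (x + y) (by rw [List.length_erase_of_mem hy, hz]; rfl)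
      (by rw [add_assoc, ← List.sum_cons, ← hp.sum_eq]; exact hs)
    refine ⟨y :: z', (h1.cons y).trans hp.symm, fun j => ?_⟩
    have h3 := sq_nonneg' z
    cases j with
    | zero => simpa using h3
    | succ j =>
      rw [List.take_succ_cons, List.sum_cons, ← add_assoc, sq_perm hp, sq_cons]
      have h4 := norm_add_sq_real x y
      have h5 := h2 j
      linarith

theorem norm_sum_sq (u : List (V d)) : ‖u.sum‖ ^ 2 ≤ u.length * sq u := by
  have h1 : ‖u.sum‖ ≤ ∑ i : Fin u.length, ‖u.get i‖ := by
    conv_lhs => rw [← List.ofFn_get u, List.sum_ofFn]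
    exact norm_sum_le _ _
  have h2 : sq u = ∑ i : Fin u.length, ‖u.get i‖ ^ 2 := by
    unfold sq
    conv_lhs => rw [← List.ofFn_get u, List.map_ofFn, List.sum_ofFn]
    rfl
  have h3 := sq_sum_le_card_mul_sum_sq (s := Finset.univ) (f := fun i : Fin u.length => ‖u.get i‖)
  rw [Finset.card_univ, Fintype.card_fin] at h3
  rw [h2]
  exact (pow_le_pow_left₀ (norm_nonneg _) h1 2).trans h3

theorem sum_sub (u : List (V d)) (c : V d) :
    (u.map fun v => v - c).sum = u.sum - (u.length : ℝ) • c := by
  induction u with
  | nil => simp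
  | cons y u ih =>
    simp only [List.map_cons, List.sum_cons, ih, List.length_cons, Nat.cast_succ, add_smul,
      one_smul]
    abel

theorem sq_sub (u : List (V d)) (c : V d) :
    sq (u.map fun v => v - c) ≤ 2 * sq u + 2 * u.length * ‖c‖ ^ 2 := by
  induction u with
  | nil => simp [sq]
  | cons y u ih =>
    rw [List.map_cons, sq_cons, sq_cons, List.length_cons]
    push_cast
    have h1 : ‖y - c‖ ^ 2 ≤ (‖y‖ + ‖c‖) ^ 2 :=
      pow_le_pow_left₀ (norm_nonneg _) (norm_sub_le y c) 2
    nlinarith [sq_nonneg (‖y‖ - ‖c‖)]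

/-- the mean -/
noncomputable def mean (u : List (V d)) : V d := (u.length : ℝ)⁻¹ • u.sum

theorem length_smul_mean (u : List (V d)) : (u.length : ℝ) • mean u = u.sum := by
  cases u with
  | nil => simp [mean]
  | cons y u =>
    unfold mean
    rw [smul_smul, mul_inv_cancel₀ (by simp; positivity), one_smul]

theorem mean_sq (u : List (V d)) : u.length * ‖mean u‖ ^ 2 ≤ sq u := by
  rcases Nat.eq_zero_or_pos u.length with h | h
  · rw [h]; simpa using sq_nonneg' u
  · have h0 : (0 : ℝ) < u.length := by exact_mod_cast h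
    have h1 := norm_sum_sq u
    rw [← length_smul_mean, norm_smul, Real.norm_natCast, mul_pow] at h1
    refine le_of_mul_le_mul_left ?_ h0
    nlinarith

theorem greedy_mean (u : List (V d)) {M : ℝ} (hM : 0 ≤ M) (hu : sq u ≤ M ^ 2) :
    ∃ u' : List (V d), u'.Perm u ∧
      ∀ j, ‖((u'.map fun v => v - mean u).take j).sum‖ ≤ 2 * M := by
  obtain ⟨z, h1, h2⟩ := greedy _ (u.map fun v => v - mean u) 0 rfl (by
    rw [sum_sub, length_smul_mean]; simp)
  refine ⟨z.map fun v => v + mean u, ?_, fun j => ?_⟩
  · simpa [List.map_map, Function.comp_def] using h1.map fun v => v + mean u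
  · have e : (z.map fun v => v + mean u).map (fun v => v - mean u) = z := by
      simp [List.map_map, Function.comp_def]
    rw [e]
    have h3 := h2 j
    have h4 := sq_sub u (mean u)
    have h5 := mean_sq u
    simp only [zero_add, norm_zero] at h3
    refine (pow_le_pow_iff_left₀ (norm_nonneg _) (by linarith) two_ne_zero).1 ?_
    nlinarith

theorem replace (c : V d) (l' : List (V d)) : ∀ w u : List (V d),
    l'.Perm (w ++ List.replicate u.length c) → ∃ l'' : List (V d), l''.Perm (w ++ u) ∧
      ∀ k, ∃ j, (l''.take k).sum = (l'.take k).sum + ((u.map fun v => v - c).take j).sum := by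
  classical
  induction l' with
  | nil =>
    intro w u h
    have h1 := h.symm.eq_nil
    rw [List.append_eq_nil_iff, List.replicate_eq_nil_iff, List.length_eq_zero_iff] at h1
    obtain ⟨rfl, rfl⟩ := h1
    exact ⟨[], List.Perm.refl _, fun k => ⟨0, by simp⟩⟩
  | cons x l1 ih =>
    intro w u h
    by_cases hx : x ∈ w
    · have hp := List.perm_cons_erase hx
      obtain ⟨l2, h1, h2⟩ := ih (w.erase x) u (h.trans (hp.append_right _)).cons_inv
      refine ⟨x :: l2, (h1.cons x).trans (hp.append_right u).symm, fun k => ?_⟩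
      cases k with
      | zero => exact ⟨0, by simp⟩
      | succ k =>
        obtain ⟨j, hj⟩ := h2 k
        exact ⟨j, by simp only [List.take_succ_cons, List.sum_cons, hj, add_assoc]⟩
    · have h0 := h.subset List.mem_cons_self
      rw [List.mem_append, List.mem_replicate] at h0
      obtain ⟨hu, rfl⟩ := h0.resolve_left hx
      cases u with
      | nil => exact absurd rfl hu
      | cons y u =>
        rw [List.length_cons, List.replicate_succ] at h
        obtain ⟨l2, h1, h2⟩ := ih w u (h.trans List.perm_middle).cons_inv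
        refine ⟨y :: l2, (h1.cons y).trans List.perm_middle.symm, fun k => ?_⟩
        cases k with
        | zero => exact ⟨0, by simp⟩
        | succ k =>
          obtain ⟨j, hj⟩ := h2 k
          refine ⟨j + 1, ?_⟩
          simp only [List.take_succ_cons, List.sum_cons, hj, List.map_cons]
          abel

theorem Top.subperm {l t : List (V d)} {M : ℝ} (h : Top l M) (ht : t.Subperm l)
    (hd : t.length ≤ d) : sq t ≤ M ^ 2 := by
  obtain ⟨t', h1, h2⟩ := ht
  rw [← sq_perm h1]
  exact h t' h2 (h1.length_eq ▸ hd)

/-- the Steinitz bound for lists with any sum and any common bound for the norms -/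
def St (d : ℕ) (K : ℝ) : Prop := ∀ (l : List (V d)) (ρ : ℝ), 0 ≤ ρ → (∀ v ∈ l, ‖v‖ ≤ ρ) →
  ∃ l' : List (V d), l'.Perm l ∧
    ∀ k ≤ l.length, ‖(l'.take k).sum - ((k : ℝ) / l.length) • l.sum‖ ≤ K * ρ

theorem profile {C : ℝ} (hd : 1 ≤ d) (hC : 0 ≤ C) (h : St d (C * √d)) (l : List (V d)) {M : ℝ}
    (hM : 0 ≤ M) (hT : Top l M) : ∃ l' : List (V d), l'.Perm l ∧
      ∀ k ≤ l.length, ‖(l'.take k).sum - ((k : ℝ) / l.length) • l.sum‖ ≤ (C + 2) * M := by
  classical
  obtain ⟨w, u, l1, hp, hu, h1, h2⟩ : ∃ w u l1 : List (V d), l.Perm (w ++ u) ∧ sq u ≤ M ^ 2 ∧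
      l1.Perm (w ++ List.replicate u.length (mean u)) ∧
      ∀ k ≤ l.length, ‖(l1.take k).sum - ((k : ℝ) / l.length) • l.sum‖ ≤ C * M := by
    rcases le_or_gt l.length d with hl | hl
    · refine ⟨[], l, List.replicate l.length (mean l), List.Perm.refl _,
        hT l (List.Sublist.refl _) hl, List.Perm.refl _, fun k hk => ?_⟩
      rw [List.take_replicate, min_eq_left hk, List.sum_replicate, mean, div_eq_mul_inv,
        mul_smul, Nat.cast_smul_eq_nsmul, sub_self, norm_zero]
      positivity
    · let r : V d → V d → Prop := fun a b => ‖b‖ ≤ ‖a‖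
      have : Std.Total r := ⟨fun a b => le_total _ _⟩
      have : IsTrans (V d) r := ⟨fun a b c h1 h2 => le_trans h2 h1⟩
      have s1 := List.perm_insertionSort r l
      have s2 := List.pairwise_insertionSort r l
      set s := List.insertionSort r l with hs
      rw [← List.take_append_drop d s, List.pairwise_append] at s2
      have hlen : (s.take d).length = d := by
        rw [List.length_take, s1.length_eq]; exact min_eq_left hl.le
      have hu : sq (s.take d) ≤ M ^ 2 :=
        hT.subperm ((List.take_sublist d s).subperm.trans s1.subperm) hlen.le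
      have hp : l.Perm (s.drop d ++ s.take d) :=
        s1.symm.trans ((List.Perm.of_eq (List.take_append_drop d s).symm).trans
          List.perm_append_comm)
      have hd0 : (0 : ℝ) < d := by exact_mod_cast hd
      have hsq : 0 < √(d : ℝ) := Real.sqrt_pos.2 hd0
      have key : ∀ x : V d, d * ‖x‖ ^ 2 ≤ M ^ 2 → ‖x‖ ≤ M / √d := by
        intro x hx
        rw [le_div_iff₀ hsq]
        refine (pow_le_pow_iff_left₀ (by positivity) hM two_ne_zero).1 ?_
        rw [mul_pow, Real.sq_sqrt hd0.le, mul_comm]
        exact hx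
      obtain ⟨l1, h1, h2⟩ := h (s.drop d ++ List.replicate (s.take d).length (mean (s.take d)))
        (M / √d) (by positivity) (by
          intro v hv
          refine key v (le_trans ?_ hu)
          rcases List.mem_append.1 hv with hv | hv
          · have := List.card_nsmul_le_sum ((s.take d).map fun v => ‖v‖ ^ 2) (‖v‖ ^ 2) (by
              intro x hx
              obtain ⟨y, hy, rfl⟩ := List.mem_map.1 hx
              exact pow_le_pow_left₀ (norm_nonneg _) (s2.2.2 y hy v hv) 2)
            rwa [List.length_map, hlen, nsmul_eq_mul] at this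
          · rw [List.eq_of_mem_replicate hv]
            have := mean_sq (s.take d)
            rwa [hlen] at this)
      have e1 : (s.drop d ++ List.replicate (s.take d).length (mean (s.take d))).length =
          l.length := by
        rw [hp.length_eq]; simp
      have e2 : (s.drop d ++ List.replicate (s.take d).length (mean (s.take d))).sum =
          l.sum := by
        rw [hp.sum_eq, List.sum_append, List.sum_append, List.sum_replicate,
          ← Nat.cast_smul_eq_nsmul ℝ, length_smul_mean]
      rw [e1, e2] at h2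
      refine ⟨_, _, l1, hp, hu, h1, fun k hk => (h2 k hk).trans (le_of_eq ?_)⟩
      field_simp
  obtain ⟨u', g1, g2⟩ := greedy_mean u hM hu
  obtain ⟨l2, f1, f2⟩ := replace (mean u) l1 w u' (g1.length_eq ▸ h1)
  refine ⟨l2, (f1.trans (g1.append_left w)).trans hp.symm, fun k hk => ?_⟩
  obtain ⟨j, hj⟩ := f2 k
  rw [hj, add_sub_right_comm]
  refine (norm_add_le _ _).trans ?_
  have := h2 k hk
  have := g2 j
  linarith

end Vale.Agent.N262L
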